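import Vale.Agent.P272.GEO.Osgood
import Vale.Agent.P281.MF.Hol

/-!
P275 (helper24): derivatives in families, and Osgood's lemma on `E × ℂ`.
-/

set_option linter.all false

open scoped Topology
open Set Filter

noncomputable section

namespace Vale.Agent.P275GF

variable {F : Type} [NormedAddCommGroup F] [NormedSpace ℂ F] [CompleteSpace F] {U : Set ℂ}

/-- jointly continuous families converge locally uniformly -/
theorem tlu_fam {T X G : Type} [TopologicalSpace T] [TopologicalSpace X] [UniformSpace G]
    {f : T → X → G} {V : Set T} {U : Set X} {t : T} (ht : t ∈ V)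
    (hc : ContinuousOn (fun p : T × X => f p.1 p.2) (V ×ˢ U)) :
    TendstoLocallyUniformlyOn f (f t) (𝓝[V] t) U := by
  refine tendstoLocallyUniformlyOn_iff_forall_tendsto.2 fun x hx => ?_
  have a := (hc (t, x) ⟨ht, hx⟩).tendsto
  rw [nhdsWithin_prod_eq] at a
  exact ((a.comp ((tendsto_const_nhds_nhdsWithin ht).prodMk tendsto_snd)).prodMk_nhds a).mono_right
    (nhds_le_uniformity _)
where tendsto_const_nhds_nhdsWithin {T Y : Type} [TopologicalSpace T] {V : Set T} {t : T}
    (ht : t ∈ V) {l : Filter Y} : Tendsto (fun _ => t) l (𝓝[V] t) :=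
  tendsto_nhdsWithin_iff.2 ⟨tendsto_const_nhds, Eventually.of_forall fun _ => ht⟩

/-- the converse -/
theorem fam_of_tlu {T X G : Type} [TopologicalSpace T] [TopologicalSpace X] [UniformSpace G]
    {f : T → X → G} {V : Set T} {U : Set X} (hc : ∀ t ∈ V, ContinuousOn (f t) U)
    (h : ∀ t ∈ V, TendstoLocallyUniformlyOn f (f t) (𝓝[V] t) U) :
    ContinuousOn (fun p : T × X => f p.1 p.2) (V ×ˢ U) := fun p hp => by
  show Tendsto _ _ _
  rw [show p = (p.1, p.2) from rfl, nhdsWithin_prod_eq]
  exact ((hc p.1 hp.1 p.2 hp.2).tendsto.comp tendsto_snd).congr_uniformity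
    (tendstoLocallyUniformlyOn_iff_forall_tendsto.1 (h p.1 hp.1) p.2 hp.2)

/-- the derivative of a continuous family of holomorphic functions -/
theorem derf_cont {T : Type} [TopologicalSpace T] {f : T → ℂ → F} {V : Set T} (hU : IsOpen U)
    (hc : ContinuousOn (fun p : T × ℂ => f p.1 p.2) (V ×ˢ U))
    (hd : ∀ t ∈ V, DifferentiableOn ℂ (f t) U) :
    ContinuousOn (fun p : T × ℂ => deriv (f p.1) p.2) (V ×ˢ U) :=
  fam_of_tlu (f := fun t => deriv (f t)) (fun t ht => ((hd t ht).deriv hU).continuousOn)
    fun t ht => (tlu_fam ht hc).deriv (eventually_of_mem self_mem_nhdsWithin hd) hU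

variable {E : Type} [NormedAddCommGroup E] [NormedSpace ℂ E] [FiniteDimensional ℂ E]

/-- the derivative of a holomorphic family, on any open set -/
theorem derf_hol' {f : E → ℂ → F} {D : Set (E × ℂ)} (hD : IsOpen D)
    (hd : DifferentiableOn ℂ (fun p : E × ℂ => f p.1 p.2) D) :
    DifferentiableOn ℂ (fun p : E × ℂ => deriv (f p.1) p.2) D := by
  have a := ((P281.MF.contDiffOn_of_differentiableOn hD hd 2).fderiv_of_isOpen (m := 1) hD
    (by norm_cast)).differentiableOn one_ne_zero
  refine (a.clm_apply (differentiableOn_const (0, 1))).congr fun p hp => ?_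
  exact ((hd.differentiableAt (hD.mem_nhds hp)).hasFDerivAt.comp_hasDerivAt p.2
    ((hasDerivAt_const p.2 p.1).prodMk (hasDerivAt_id p.2))).deriv

theorem derf_hol {f : E → ℂ → F} {V : Set E} (hV : IsOpen V) (hU : IsOpen U)
    (hd : DifferentiableOn ℂ (fun p : E × ℂ => f p.1 p.2) (V ×ˢ U)) :
    DifferentiableOn ℂ (fun p : E × ℂ => deriv (f p.1) p.2) (V ×ˢ U) := derf_hol' (hV.prod hU) hd

/-- Osgood's lemma for a basis -/
theorem osg_basis {ι : Type} [Fintype ι] (b : Module.Basis ι ℂ E) {D : Set E} (hD : IsOpen D)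
    {f : E → F} (hc : ContinuousOn f D)
    (hd : ∀ x ∈ D, ∀ i, DifferentiableAt ℂ (fun τ : ℂ => f (x + τ • b i)) 0) :
    DifferentiableOn ℂ f D := by
  let b' := b.reindex (Fintype.equivFin ι)
  let e := b'.equivFunL
  have a := P272.GEO.osgood (hD.preimage e.symm.continuous) (g := fun x => f (e.symm x))
    (hc.comp e.symm.continuous.continuousOn fun _ h => h) fun x hx i => by
      have e1 : ∀ τ : ℂ, e.symm (Function.update x i τ) = e.symm x + (τ - x i) • b' i := fun τ => by
        apply e.injective
        rw [map_add, e.apply_symm_apply, e.apply_symm_apply]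
        ext j
        by_cases h : j = i <;> simp [e, h, Finsupp.single_apply, eq_comm (a := i)]
      simp only [e1, b', Module.Basis.reindex_apply]
      exact DifferentiableAt.comp (x i) (g := fun τ : ℂ => f (e.symm x + τ • b _))
        (by simpa using hd _ hx _) (differentiableAt_id.sub_const _)
  exact (a.comp e.differentiable.differentiableOn fun x hx => by simpa using hx).congr
    fun x _ => by simp

/-- Osgood's lemma on `E × ℂ` -/
theorem osg {D : Set (E × ℂ)} (hD : IsOpen D) {f : E × ℂ → F} (hc : ContinuousOn f D)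
    (h1 : ∀ p ∈ D, DifferentiableAt ℂ (fun t => f (t, p.2)) p.1)
    (h2 : ∀ p ∈ D, DifferentiableAt ℂ (fun w => f (p.1, w)) p.2) : DifferentiableOn ℂ f D := by
  refine osg_basis ((Module.finBasis ℂ E).prod (Module.Basis.singleton Unit ℂ)) hD hc ?_
  rintro ⟨t, w⟩ hp (i | i)
  · have := DifferentiableAt.comp (0 : ℂ) (g := fun t => f (t, w))
      (f := fun τ : ℂ => t + τ • Module.finBasis ℂ E i) (by simpa using h1 _ hp) (by fun_prop)
    simpa [Function.comp_def] using this
  · have := DifferentiableAt.comp (0 : ℂ) (g := fun w => f (t, w))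
      (f := fun τ : ℂ => w + τ) (by simpa using h2 _ hp) (by fun_prop)
    simpa [Function.comp_def] using this

end Vale.Agent.P275GF
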