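import Vale.Agent.P275GF.Der
import Vale.Agent.P275MB.Iso
import Vale.Agent.P275MO.KDefs
import Vale.Agent.P275GC.St

/-!
P275 (helper24): changes of frames in families, the block `GF`.
-/

set_option linter.all false

open scoped Topology Matrix.Norms.Operator ContDiff ComplexOrder
open Set Filter Metric Matrix
open Vale.Agent.P281Z.Hm Vale.Agent.P275GC Vale.Agent.P275GC.At Vale.Agent.P275MO
open Vale.Agent.P275NA (Fm Cy Mn fc)
open Vale.Agent.P275MB

noncomputable section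

namespace Vale.Agent.P275GF

variable {C : Type} [TopologicalSpace C] {n : ℕ} {A : At C} {l : Cy A ℂ} {i j : Fin A.N} {w : ℂ}
  {z z' : Dat C A.N n} {Φ : Fm A (Mn n)} {g g' : Cy A (Mn n)} {h : Mn n}

theorem BIso.fc (f : BIso A g g' Φ) (hw : w ∈ A.O i j) : fc A Φ g' i j w = g i j w := by
  rw [P275NA.fc, Matrix.mul_assoc, ← f.law i j w hw,
    nonsing_inv_mul_cancel_left _ _ (f.det i w hw.1).isUnit]

theorem bun_of (G : Good A l z) : Bun A l z.g := ⟨G.cc, G.det⟩

theorem Bun.congr (b : Bun A l g) (e : ∀ i j, ∀ w ∈ A.O i j, g' i j w = g i j w) : Bun A l g' :=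
  ⟨⟨fun i j => (b.cc.hol i j).congr (e i j), fun i w hw => (e i i w (O_self hw)).trans
    (b.cc.one i w hw), fun i j k w x y => by
      rw [e i k w y, e i j w x, e j k _ (tr_O x y), b.cc.mul i j k w x y]⟩,
    fun i j w hw => by rw [e i j w hw, b.det i j w hw]⟩

theorem iso_gauge (hh : A.Hl Φ) (d : ∀ i, ∀ w ∈ ball (0 : ℂ) A.R, (Φ i w).det ≠ 0)
    (z : Dat C A.N n) : IsoBy A (gauge A Φ z) z Φ 1 where
  lam := rfl
  x := rfl
  hol := hh
  law i j w hw := by
    simp only [P275MO.gauge, P275NA.fc, Matrix.mul_assoc,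
      mul_nonsing_inv_cancel_left _ _ (d i w hw.1).isUnit]
  con i w hw := (mul_nonsing_inv_cancel_left _ _ (d i w hw.1).isUnit).symm
  det := d
  fr i hx := (mul_nonsing_inv_cancel_left _ _ (d i _ (map_src hx)).isUnit).trans (mul_one _).symm

theorem same_gauge (G : Good A l z) (G' : Good A l z') (f : IsoBy A z z' Φ h) :
    Same A z (gauge A Φ (z'.act h)) where
  lam := f.lam
  x := f.x
  g i j w hw := BIso.fc ⟨f.hol, f.det, f.law⟩ hw
  a i w hw := by
    show (Φ i w)⁻¹ * (z'.lam • deriv (Φ i) w + z'.a i w * Φ i w) = _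
    rw [f.lam, f.con i w hw, nonsing_inv_mul_cancel_left _ _ (f.det i w hw.1).isUnit]
  σ i hx := by
    show (Φ i (A.e i z'.x))⁻¹ * (z'.σ i * h) = _
    rw [f.x, ← f.fr i hx, nonsing_inv_mul_cancel_left _ _ (f.det i _ (map_src hx)).isUnit]
  R := by
    have d := (IsoBy.det_h G f).isUnit
    show h⁻¹ * z'.R * h = _
    rw [IsoBy.R G G' f]
    simp only [Matrix.mul_assoc, nonsing_inv_mul_cancel_left _ _ d, nonsing_inv_mul _ d,
      Matrix.mul_one]

theorem cw_inv {X : Type} [TopologicalSpace X] {f : X → Mn n} {S : Set X} (hf : ContinuousOn f S)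
    (d : ∀ x ∈ S, (f x).det ≠ 0) : ContinuousOn (fun x => (f x)⁻¹) S := fun x hx =>
  (an_inv (𝕜 := ℂ) analyticAt_id (d x hx)).continuousAt.comp_continuousWithinAt (hf x hx)

theorem dw_inv {X : Type} [NormedAddCommGroup X] [NormedSpace ℂ X] {f : X → Mn n} {S : Set X}
    (hf : DifferentiableOn ℂ f S) (d : ∀ x ∈ S, (f x).det ≠ 0) :
    DifferentiableOn ℂ (fun x => (f x)⁻¹) S := fun x hx =>
  (an_inv (𝕜 := ℂ) analyticAt_id (d x hx)).differentiableAt.comp_differentiableWithinAt x (hf x hx)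

theorem HFamOn.act {E : Type} [NormedAddCommGroup E] [NormedSpace ℂ E] {F : E → Dat C A.N n}
    {V : Set E} {c : E → Mn n} (f : HFamOn A l F V) (hc : DifferentiableOn ℂ c V)
    (d : ∀ t ∈ V, (c t).det ≠ 0) : HFamOn A l (fun t => (F t).act (c t)) V :=
  ⟨FamOn.act f.toFamOn hc.continuousOn d, f.hlam, f.hx, ((dw_inv hc d).mul f.hR).mul hc, f.hg, f.ha,
    fun i => (f.hσ i).mul (hc.mono fun _ a => a.1)⟩

variable [T2Space C] [PreconnectedSpace C]

/-- the determinant of an isomorphism of bundles with the same determinant is constant -/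
theorem BIso.det_const (b : Bun A l g) (b' : Bun A l g') (f : BIso A g g' Φ)
    (hw : w ∈ ball (0 : ℂ) A.R) (i j : Fin A.N) {v : ℂ} (hv : v ∈ ball (0 : ℂ) A.R) :
    (Φ j v).det = (Φ i w).det := by
  refine Fn.hol_const1 (u := fun i w => (Φ i w).det) (fun i j w hw => ?_)
    (hl_of fun i w hw => an_det (f.hol.an hw i)) hw i j hv
  have e := congrArg Matrix.det (f.law i j w hw)
  have d := b.cc.det_ne hw
  rw [Matrix.det_mul, Matrix.det_mul, b'.det i j w hw, ← b.det i j w hw, mul_comm] at e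
  exact mul_left_cancel₀ d e

theorem BIso.tr_der (b : Bun A l g) (b' : Bun A l g') (f : BIso A g g' Φ)
    (hw : w ∈ ball (0 : ℂ) A.R) (i : Fin A.N) : trace ((Φ i w)⁻¹ * deriv (Φ i) w) = 0 := by
  have e : (fun y => (Φ i y).det) =ᶠ[𝓝 w] fun _ => (Φ i w).det :=
    eventually_of_mem (isOpen_ball.mem_nhds hw) fun y hy => BIso.det_const b b' f hw i i hy
  have := e.deriv_eq
  rw [deriv_det (f.hol.an hw i) (f.det i w hw), deriv_const] at this
  exact (mul_eq_zero.1 this).resolve_left (f.det i w hw)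

theorem law_alg {P Q G G' P' Q' a b : Mn n} {s d c : ℂ} (p : IsUnit P.det) (q : IsUnit Q.det)
    (k : a * G + s • G' = d • (G * b) + c • G) :
    P⁻¹ * (s • P' + a * P) * (P⁻¹ * G * Q) + s • ((-(P⁻¹ * P' * P⁻¹) * G + P⁻¹ * G') * Q +
      P⁻¹ * G * d • Q') = d • (P⁻¹ * G * Q * (Q⁻¹ * (s • Q' + b * Q))) + c • (P⁻¹ * G * Q) := by
  have k := congrArg (fun X => P⁻¹ * X * Q) k
  simp only [Matrix.mul_add, Matrix.add_mul, Matrix.mul_smul, Matrix.smul_mul, Matrix.mul_assoc,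
    mul_nonsing_inv_cancel_left _ _ p, mul_nonsing_inv_cancel_left _ _ q, Matrix.neg_mul] at k ⊢
  linear_combination (norm := module) k

theorem pole_gauge {P a : ℂ → Mn n} {c s : ℂ} {σ R : Mn n} (p : AnalyticAt ℂ P c)
    (d : (P c).det ≠ 0) (h : Tendsto (fun w => (w - c) • a w) (𝓝[≠] c) (𝓝 (σ * R * σ⁻¹))) :
    Tendsto (fun w => (w - c) • ((P w)⁻¹ * (s • deriv P w + a w * P w))) (𝓝[≠] c)
      (𝓝 ((P c)⁻¹ * σ * R * ((P c)⁻¹ * σ)⁻¹)) := by
  have t0 : Tendsto (fun w => w - c) (𝓝[≠] c) (𝓝 0) :=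
    ((continuous_id.sub continuous_const).tendsto' _ _ (sub_self _)).mono_left nhdsWithin_le_nhds
  have t := ((an_inv p d).continuousAt.tendsto.mono_left nhdsWithin_le_nhds).mul
    ((t0.smul ((p.deriv.continuousAt.tendsto.mono_left nhdsWithin_le_nhds).const_smul s)).add
      (h.mul (p.continuousAt.tendsto.mono_left nhdsWithin_le_nhds)))
  rw [zero_smul, zero_add] at t
  rw [Matrix.mul_inv_rev, nonsing_inv_nonsing_inv _ d.isUnit]
  simp only [Matrix.mul_assoc] at t ⊢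
  exact t.congr fun w => by rw [smul_mul_assoc, ← smul_add, mul_smul_comm]; rfl

theorem good_gauge (G : Good A l z) (b : Bun A l g) (f : BIso A g z.g Φ) :
    Good A l (gauge A Φ z) where
  cc := (Bun.congr b fun i j w hw => BIso.fc f hw).cc
  det := (Bun.congr b fun i j w hw => BIso.fc f hw).det
  hol i := (dw_inv ((f.hol i).mono fun _ a => a.1) fun w a => f.det i w a.1).mul
    (((((f.hol i).deriv isOpen_ball).mono fun _ a => a.1).const_smul z.lam).add
      ((G.hol i).mul ((f.hol i).mono fun _ a => a.1)))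
  tr i w hw := by
    show trace ((Φ i w)⁻¹ * (z.lam • deriv (Φ i) w + z.a i w * Φ i w)) = 0
    rw [Matrix.mul_add, Matrix.mul_smul, trace_add, trace_smul, BIso.tr_der b (bun_of G) f hw.1,
      trace_mul_comm, Matrix.mul_assoc, mul_nonsing_inv _ (f.det i w hw.1).isUnit, Matrix.mul_one,
      G.tr i w hw, smul_zero, add_zero]
  law i j w hw hx := by
    obtain ⟨c, hc⟩ := G.law i j w hw hx
    have p := f.hol.an hw.1 i
    have q := f.hol.an (tr_ball hw) j
    have d := f.det i w hw.1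
    have e : deriv (fun y => Φ j (A.tr i j y)) w = A.d i j w • deriv (Φ j) (A.tr i j w) :=
      (q.differentiableAt.hasDerivAt.scomp w (has_tr hw)).deriv
    have e2 := dmul (an_mul (an_inv p d) (G.cc.an hw)) (g := fun y => Φ j (A.tr i j y))
      (q.comp (an_tr hw))
    rw [dmul (an_inv p d) (G.cc.an hw), deriv_minv p d, e] at e2
    exact ⟨c, (congrArg (fun X => _ + z.lam • X) e2).trans
      (law_alg d.isUnit (f.det j _ (tr_ball hw)).isUnit hc)⟩
  fr i hx := by
    show ((Φ i (A.e i z.x))⁻¹ * z.σ i).det ≠ 0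
    rw [Matrix.det_mul]
    exact mul_ne_zero (isUnit_nonsing_inv_det _ (f.det i _ (map_src hx)).isUnit).ne_zero (G.fr i hx)
  frc i j a c := by
    show (Φ i (A.e i z.x))⁻¹ * z.σ i = (Φ i (A.e i z.x))⁻¹ * z.g i j (A.e i z.x) *
      Φ j (A.tr i j (A.e i z.x)) * ((Φ j (A.e j z.x))⁻¹ * z.σ j)
    rw [tr_e (x := z.x) a, G.frc i j a c]
    simp only [Matrix.mul_assoc,
      mul_nonsing_inv_cancel_left _ _ (f.det j _ (map_src (x := z.x) c)).isUnit]
  pole i a := pole_gauge (f.hol.an (map_src a) i) (f.det i _ (map_src a)) (G.pole i a)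

theorem fam_gauge {T : Type} [TopologicalSpace T] {G : T → Dat C A.N n} {g : T → Cy A (Mn n)}
    {Φ : T → Fm A (Mn n)} {V : Set T} (f : FamOn A l G V)
    (c : ∀ i, ContinuousOn (fun p : T × ℂ => Φ p.1 i p.2) (V ×ˢ ball 0 A.R))
    (b : ∀ t ∈ V, Bun A l (g t) ∧ BIso A (g t) (G t).g (Φ t)) :
    FamOn A l (fun t => gauge A (Φ t) (G t)) V where
  good t a := good_gauge (f.good t a) (b t a).1 (b t a).2
  lam := f.lam
  x := f.x
  R := f.R
  g i j := ((cw_inv ((c i).mono fun _ a => ⟨a.1, a.2.1⟩) fun p a =>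
    (b _ a.1).2.det i _ a.2.1).mul (f.g i j)).mul ((c j).comp (f := fun p : T × ℂ =>
      (p.1, A.tr i j p.2)) (continuousOn_fst.prodMk ((A.hol i j).continuousOn.comp continuousOn_snd
        fun _ a => a.2)) fun _ a => ⟨a.1, tr_ball a.2⟩)
  a i := (cw_inv ((c i).mono fun _ a => ⟨a.1, a.2.1⟩) fun p a => (b _ a.1).2.det i _ a.2.1).mul
    (((f.lam.comp continuousOn_fst fun _ a => a.1).smul ((derf_cont (f := fun t => Φ t i)
      isOpen_ball (c i) fun t a => (b t a).2.hol i).mono fun _ a => ⟨a.1, a.2.1⟩)).add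
        ((f.a i).mul ((c i).mono fun _ a => ⟨a.1, a.2.1⟩)))
  σ i := (cw_inv ((c i).comp (f := fun t => (t, A.e i (G t).x)) (continuousOn_id.prodMk
    ((A.e i).continuousOn.comp (f.x.mono fun _ a => a.1) fun _ a => a.2))
      fun _ a => ⟨a.1, map_src a.2⟩) fun t a => (b t a.1).2.det i _ (map_src a.2)).mul (f.σ i)

theorem hfam_gauge {T : Type} [NormedAddCommGroup T] [NormedSpace ℂ T] [FiniteDimensional ℂ T]
    {G : T → Dat C A.N n} {g : T → Cy A (Mn n)} {Φ : T → Fm A (Mn n)} {V : Set T} (hV : IsOpen V)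
    (f : HFamOn A l G V)
    (c : ∀ i, DifferentiableOn ℂ (fun p : T × ℂ => Φ p.1 i p.2) (V ×ˢ ball 0 A.R))
    (b : ∀ t ∈ V, Bun A l (g t) ∧ BIso A (g t) (G t).g (Φ t)) :
    HFamOn A l (fun t => gauge A (Φ t) (G t)) V where
  toFamOn := fam_gauge f.toFamOn (fun i => (c i).continuousOn) b
  hlam := f.hlam
  hx := f.hx
  hR := f.hR
  hg i j := ((dw_inv ((c i).mono fun _ a => ⟨a.1, a.2.1⟩) fun p a =>
    (b _ a.1).2.det i _ a.2.1).mul (f.hg i j)).mul ((c j).comp (f := fun p : T × ℂ =>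
      (p.1, A.tr i j p.2)) (differentiableOn_fst.prodMk ((A.hol i j).comp differentiableOn_snd
        fun _ a => a.2)) fun _ a => ⟨a.1, tr_ball a.2⟩)
  ha i := (dw_inv ((c i).mono fun _ a => ⟨a.1, a.2.1⟩) fun p a => (b _ a.1).2.det i _ a.2.1).mul
    (((f.hlam.comp differentiableOn_fst fun _ a => a.1).smul ((derf_hol (f := fun t => Φ t i)
      hV isOpen_ball (c i)).mono fun _ a => ⟨a.1, a.2.1⟩)).add
        ((f.ha i).mul ((c i).mono fun _ a => ⟨a.1, a.2.1⟩)))
  hσ i := (dw_inv ((c i).comp (f := fun t => (t, A.e i (G t).x)) (differentiableOn_id.prodMk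
    (f.hx i)) fun _ a => ⟨a.1, map_src a.2⟩) fun t a =>
      (b t a.1).2.det i _ (map_src a.2)).mul (f.hσ i)

theorem gf (n : ℕ) (A : At C) (l : Cy A ℂ) : GF n A l :=
  ⟨fun z _ _ G b f => ⟨good_gauge G b f, iso_gauge f.hol f.det z, fun _ _ _ hw => BIso.fc f hw⟩,
    fun _ _ _ _ G G' f => ⟨IsoBy.det_h G f, ⟨f.hol, f.det, f.law⟩, same_gauge G G' f⟩,
    fun _ _ _ _ _ _ _ f hc c b => fam_gauge (FamOn.act f hc fun t a => (b t a).1) c
      fun t a => (b t a).2,
    fun _ _ _ _ _ _ _ _ _ hV f hc c b => hfam_gauge hV (HFamOn.act f hc fun t a => (b t a).1) c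
      fun t a => (b t a).2⟩

end Vale.Agent.P275GF
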